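import Vale.Agent.P045.Bdl.B1

/-!
# P045: weighted dual examples and substitution

`WCE w`: partitions `f i` (`i : P`) of a nonempty finite set such that any two elements are
together in some block, and every cover by blocks has weight at least `∑ i, w i`, where a block of
the partition `i` has weight `w i`.  Substituting dual examples for `w i` in place of the partition
`i` gives a dual example for `∑ i, w i`.
-/

namespace Vale.Agent.P045.H332

open Finset P045.LS

/-- weighted dual form -/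
def WCE {P : Type} [Fintype P] (w : P → ℕ) : Prop :=
  ∃ (W Z : Type) (_ : Fintype W) (_ : Fintype Z) (_ : DecidableEq W) (_ : DecidableEq Z)
    (f : P → W → Z), Nonempty W ∧ (∀ x y : W, ∃ i, f i x = f i y) ∧
    ∀ C : Finset (P × Z), (∀ x, ∃ i, (i, f i x) ∈ C) → ∑ i, w i ≤ ∑ c ∈ C, w c.1

theorem dualCE_one : DualCE 1 := by
  refine ⟨Unit, Unit, Unit, inferInstance, inferInstance, inferInstance, inferInstance,
    inferInstance, inferInstance, fun _ _ => (), ⟨()⟩, rfl, fun _ _ => ⟨(), rfl⟩, ?_⟩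
  intro C hC
  obtain ⟨i, hi⟩ := hC ()
  exact Finset.card_pos.2 ⟨_, hi⟩

/-- **Substitution.** -/
theorem dualCE_of_wce {P : Type} [Fintype P] [DecidableEq P] {w : P → ℕ} (h : WCE w)
    (hw : ∀ i, DualCE (w i)) : DualCE (∑ i, w i) := by
  classical
  obtain ⟨W, Z, iW, iZ, dW, dZ, f, hne, hint, hcov⟩ := h
  choose P' W' Z' iP' iW' iZ' dP' dW' dZ' g hne' hcard' hint' hcov' using hw
  refine ⟨Σ i, P' i, W × (∀ i, W' i), Z × (Σ i, Z' i), inferInstance, inferInstance,
    inferInstance, inferInstance, inferInstance, inferInstance,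
    fun a x => (f a.1 x.1, ⟨a.1, g a.1 a.2 (x.2 a.1)⟩), ?_, ?_, ?_, ?_⟩
  · obtain ⟨x⟩ := hne
    exact ⟨(x, fun i => (hne' i).some)⟩
  · rw [Fintype.card_sigma]
    exact Finset.sum_congr rfl fun i _ => hcard' i
  · rintro ⟨x, a⟩ ⟨y, b⟩
    obtain ⟨i, hi⟩ := hint x y
    obtain ⟨j, hj⟩ := hint' i (a i) (b i)
    refine ⟨⟨i, j⟩, ?_⟩
    simp only [hi, hj]
  · intro C hC
    let C0 : Finset (P × Z) := univ.filter fun c =>
      ∀ v : W' c.1, ∃ j : P' c.1, ((⟨c.1, j⟩, (c.2, ⟨c.1, g c.1 j v⟩)) :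
        (Σ i, P' i) × (Z × (Σ i, Z' i))) ∈ C
    have h0 : ∀ x, ∃ i, (i, f i x) ∈ C0 := by
      intro x
      by_contra hcon
      push Not at hcon
      have h1 : ∀ i, ∃ v : W' i, ∀ j : P' i, ((⟨i, j⟩, (f i x, ⟨i, g i j v⟩)) :
          (Σ i, P' i) × (Z × (Σ i, Z' i))) ∉ C := by
        intro i
        by_contra h2
        push Not at h2
        exact hcon i (Finset.mem_filter.2 ⟨Finset.mem_univ _, h2⟩)
      choose v hv using h1
      obtain ⟨⟨i, j⟩, hij⟩ := hC (x, v)
      exact hv i j hij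
    refine (hcov C0 h0).trans ?_
    have h1 : ∀ c ∈ C0, w c.1 ≤ (C.filter fun e => (e.1.1, e.2.1) = c).card := by
      rintro ⟨i, z⟩ hc
      have hc' := (Finset.mem_filter.1 hc).2
      let D : Finset (P' i × Z' i) := univ.filter fun e =>
        ((⟨i, e.1⟩, (z, ⟨i, e.2⟩)) : (Σ i, P' i) × (Z × (Σ i, Z' i))) ∈ C
      have hD : w i ≤ D.card := by
        apply hcov' i D
        intro v
        obtain ⟨j, hj⟩ := hc' v
        exact ⟨j, Finset.mem_filter.2 ⟨Finset.mem_univ _, hj⟩⟩
      refine hD.trans (Finset.card_le_card_of_injOn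
        (fun e => ((⟨i, e.1⟩, (z, ⟨i, e.2⟩)) : (Σ i, P' i) × (Z × (Σ i, Z' i)))) ?_ ?_)
      · intro e he
        exact Finset.mem_filter.2 ⟨(Finset.mem_filter.1 he).2, rfl⟩
      · intro e _ e' _ hee
        have h3 := Prod.mk.inj hee
        have h4 := eq_of_heq (Sigma.mk.inj h3.1).2
        have h5 := eq_of_heq (Sigma.mk.inj (Prod.mk.inj h3.2).2).2
        exact Prod.ext h4 h5
    refine (Finset.sum_le_sum h1).trans ?_
    rw [← Finset.card_biUnion]
    · refine Finset.card_le_card ?_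
      intro e he
      obtain ⟨c, -, hc⟩ := Finset.mem_biUnion.1 he
      exact (Finset.mem_filter.1 hc).1
    · intro c _ c' _ hcc
      rw [Function.onFun, Finset.disjoint_left]
      intro e he he'
      exact hcc ((Finset.mem_filter.1 he).2.symm.trans (Finset.mem_filter.1 he').2)

end Vale.Agent.P045.H332
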