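import Vale.Agent.P045.H332.Comp

/-!
# P045: the weighted line lemma and the weighted cover theorem
-/

namespace Vale.Agent.P045.H332

open Finset P045.LS

theorem choose_ge (s j : ℕ) (hs : 1 ≤ s) : 1 + j * s ≤ (s + j).choose s := by
  obtain ⟨s', rfl⟩ : ∃ s', s = s' + 1 := ⟨s - 1, by omega⟩
  induction j with
  | zero => simp
  | succ j ih =>
    have h1 : (s' + 1 + (j + 1)).choose (s' + 1) =
        (s' + 1 + j).choose s' + (s' + 1 + j).choose (s' + 1) := by
      rw [show s' + 1 + (j + 1) = (s' + 1 + j) + 1 by ring, Nat.choose_succ_succ]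
    have h2 : (s' + 1).choose s' ≤ (s' + 1 + j).choose s' :=
      Nat.choose_le_choose _ (Nat.le_add_right _ _)
    rw [Nat.choose_succ_self_right] at h2
    rw [h1]
    have h3 : 1 + (j + 1) * (s' + 1) = (s' + 1) + (1 + j * (s' + 1)) := by ring
    rw [h3]
    exact Nat.add_le_add h2 ih

/-- The weighted local lemma. -/
theorem local_labelW {β : Type*} [DecidableEq β] {s : ℕ} (hs : 1 ≤ s)
    (cls : Finset (Fin (2 * s)) → β)
    (hcls : ∀ S S', cls S = cls S' → S = S' ∨ S = S'ᶜ)
    (A : Finset (Fin (2 * s))) (H : Finset β) (w u : ℕ) (hwu : w ≤ u)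
    (hu : 2 * u + w ≤ s * w) (hAH : w * H.card + u * A.card < w + s * u) :
    ∃ S : Finset (Fin (2 * s)), S.card = s ∧ Disjoint S A ∧ cls S ∉ H := by
  by_contra hcon
  push Not at hcon
  have h1 : (Finset.powersetCard s Aᶜ).card ≤ 2 * H.card := by
    refine Finset.card_le_mul_card_image_of_maps_to (f := cls) ?_ 2 ?_
    · intro S hS
      rw [Finset.mem_powersetCard] at hS
      exact hcon S hS.2 (Finset.disjoint_left.2 fun a ha => Finset.mem_compl.1 (hS.1 ha))
    · intro b _
      by_cases hne : ((Finset.powersetCard s Aᶜ).filter (fun S => cls S = b)).Nonempty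
      · obtain ⟨S0, hS0⟩ := hne
        have hb : cls S0 = b := (Finset.mem_filter.1 hS0).2
        refine (Finset.card_le_card (t := {S0, S0ᶜ}) ?_).trans Finset.card_le_two
        intro S hS
        have := (Finset.mem_filter.1 hS).2
        rcases hcls S S0 (this.trans hb.symm) with h | h <;> simp [h]
      · rw [Finset.not_nonempty_iff_eq_empty.1 hne]; simp
  rw [Finset.card_powersetCard, Finset.card_compl, Fintype.card_fin] at h1
  set α := A.card with hα
  set η := H.card with hη
  by_cases hle : α ≤ s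
  · obtain ⟨j, hj⟩ : ∃ j, s = α + j := ⟨s - α, by omega⟩
    have h3 : 2 * s - α = s + j := by omega
    rw [h3] at h1
    have h2 := (choose_ge s j hs).trans h1
    rcases Nat.eq_zero_or_pos j with h0 | h0
    · subst h0
      have h4 : 1 ≤ η := by omega
      have h5 : α = s := by omega
      rw [h5] at hAH
      nlinarith [Nat.mul_le_mul_left w h4]
    · have h6 : w * η < w + j * u := by
        have : s * u = α * u + j * u := by rw [hj]; ring
        nlinarith
      have h7 : w * (1 + j * s) ≤ w * (2 * η) := Nat.mul_le_mul_left w h2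
      have h8 : j * (2 * u + w) ≤ j * (s * w) := Nat.mul_le_mul_left j hu
      have h9 : w ≤ j * w := Nat.le_mul_of_pos_left w h0
      nlinarith
  · have h4 : s + 1 ≤ α := by omega
    have h5 : u * (s + 1) ≤ u * α := Nat.mul_le_mul_left u h4
    nlinarith

variable {F : Type} [Field F] [Fintype F] [DecidableEq F] {I : Type} [Fintype I]

/-- Split lines and labels, with richness `t + 1` (see `P045.LS.Split`). -/
structure WS (F : Type) [Field F] [Fintype F] [DecidableEq F] (I : Type) [Fintype I]
    (s : I → ℕ) (t : ℕ) where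
  Om : Finset (Pt F)
  typ : Line F → Option (I × Bool)
  xl : I → Bool → Pt F → Line F
  S : (i : I) → Pt F → Finset (Fin (2 * s i))
  xl_on : ∀ i b p, On p (xl i b p)
  xl_typ : ∀ i b p, typ (xl i b p) = some (i, b)
  uniq : ∀ i b, ∀ p ∈ Om, ∀ x, On p x → typ x = some (i, b) → x = xl i b p
  cardS : ∀ i, ∀ p ∈ Om, (S i p).card = s i
  rich : ∀ x i b, typ x = some (i, b) → ∀ L : Finset (Fin (2 * s i)), L.card = s i →
    t + 1 ≤ (Om.filter (fun p => On p x ∧ S i p = L)).card

namespace WS

variable {s : I → ℕ} {t : ℕ}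

/-- the partitions -/
def fn (D : WS F I s t) : Split.Part F s → {p // p ∈ D.Om} → Split.Blk F s
  | Sum.inl d, p => ((d, icpt d p.1), (D.typ (d, icpt d p.1)).map fun ib =>
      (⟨ib.1, {D.S ib.1 p.1, (D.S ib.1 p.1)ᶜ}⟩ : Σ i, Finset (Finset (Fin (2 * s i)))))
  | Sum.inr a, p => (if a.2 ∈ D.S a.1 p.1 then D.xl a.1 false p.1 else D.xl a.1 true p.1, none)

lemma fn_on (D : WS F I s t) (k : Split.Part F s) (p : {p // p ∈ D.Om}) :
    On p.1 (D.fn k p).1 := by
  rcases k with d | a
  · rfl
  · show On p.1 (if a.2 ∈ D.S a.1 p.1 then D.xl a.1 false p.1 else D.xl a.1 true p.1)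
    split_ifs
    · exact D.xl_on _ _ _
    · exact D.xl_on _ _ _

/-- any two points are together in some block -/
lemma intersecting (D : WS F I s t) (w w' : {p // p ∈ D.Om}) :
    ∃ k, D.fn k w = D.fn k w' := by
  obtain ⟨d, hd⟩ := Split.exists_dir w.1 w'.1
  rcases ht : D.typ (d, icpt d w.1) with _ | ⟨i, b⟩
  · refine ⟨Sum.inl d, ?_⟩
    simp only [fn]
    rw [← hd]
    rw [ht]
    rfl
  · have h1 := D.cardS i w.1 w.2
    have h2 := D.cardS i w'.1 w'.2
    by_cases h : D.S i w'.1 = (D.S i w.1)ᶜ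
    · refine ⟨Sum.inl d, ?_⟩
      simp only [fn]
      rw [← hd, ht]
      simp only [Option.map_some]
      rw [h, compl_compl, Finset.pair_comm]
    · have e1 := D.uniq i b w.1 w.2 _ (show On w.1 (d, icpt d w.1) from rfl) ht
      have e2 := D.uniq i b w'.1 w'.2 (d, icpt d w.1) (show icpt d w'.1 = icpt d w.1 from hd.symm)
        ht
      have e3 : D.xl i b w.1 = D.xl i b w'.1 := e1.symm.trans e2
      cases b with
      | false =>
        obtain ⟨a, ha, ha'⟩ := Split.exists_common h1 h2 h
        refine ⟨Sum.inr ⟨i, a⟩, ?_⟩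
        simp only [fn]
        rw [if_pos ha, if_pos ha', e3]
      | true =>
        obtain ⟨a, ha, ha'⟩ := Split.exists_common' h1 h2 h
        refine ⟨Sum.inr ⟨i, a⟩, ?_⟩
        simp only [fn]
        rw [if_neg ha, if_neg ha', e3]

/-- weights of the parts: `w d` for the direction `d`, `u i` for the colours of the class `i` -/
def pw (s : I → ℕ) (w : Option F → ℕ) (u : I → ℕ) : Split.Part F s → ℕ
  | Sum.inl d => w d
  | Sum.inr a => u a.1

omit [Field F] [DecidableEq F] in
lemma sum_pw (w : Option F → ℕ) (u : I → ℕ) :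
    ∑ k, pw s w u k = ∑ d, w d + ∑ i, 2 * s i * u i := by
  rw [Fintype.sum_sum_type]
  congr 1
  rw [Fintype.sum_sigma]
  refine Finset.sum_congr rfl fun i _ => ?_
  simp only [pw, Finset.sum_const, Finset.card_univ, Fintype.card_fin, smul_eq_mul]

/-- The weighted line lemma. -/
lemma line_lemma (D : WS F I s t) (hs : ∀ i, 1 ≤ s i) (w : Option F → ℕ) (u : I → ℕ)
    (C : Finset (Split.Part F s × Split.Blk F s))
    (hC : ∀ v, ∃ k, (k, D.fn k v) ∈ C) {x : Line F} {i : I} {b : Bool}
    (hx : D.typ x = some (i, b)) (hwu : w x.1 ≤ u i) (hu : 2 * u i + w x.1 ≤ s i * w x.1)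
    (hbad : (univ.filter (fun p : Pt F => On p x ∧ ∃ z ∈ C, z.2.1 ≠ x ∧ On p z.2.1)).card ≤ t) :
    w x.1 + s i * u i ≤ ∑ z ∈ C.filter (fun z => z.2.1 = x), pw s w u z.1 := by
  classical
  by_contra hcon
  let A : Finset (Fin (2 * s i)) := univ.filter fun a => (Sum.inr ⟨i, a⟩, (x, none)) ∈ C
  let H : Finset (Option (Σ i, Finset (Finset (Fin (2 * s i))))) :=
    (C.filter (fun z => z.2.1 = x ∧ z.1 = Sum.inl x.1)).image fun z => z.2.2
  have hA : u i * A.card ≤ ∑ z ∈ C.filter (fun z => z.2.1 = x ∧ ¬ z.1 = Sum.inl x.1),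
      pw s w u z.1 := by
    have h1 : u i * A.card = ∑ z ∈ A.image
        (fun a => ((Sum.inr ⟨i, a⟩, (x, none)) : Split.Part F s × Split.Blk F s)),
        pw s w u z.1 := by
      rw [Finset.sum_image]
      · simp only [pw, Finset.sum_const, smul_eq_mul]
        ring
      · intro a _ a' _ h
        simpa using h
    rw [h1]
    refine Finset.sum_le_sum_of_subset ?_
    intro z hz
    obtain ⟨a, ha, rfl⟩ := Finset.mem_image.1 hz
    exact Finset.mem_filter.2 ⟨(Finset.mem_filter.1 ha).2, rfl, by simp⟩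
  have hH : w x.1 * H.card ≤ ∑ z ∈ C.filter (fun z => z.2.1 = x ∧ z.1 = Sum.inl x.1),
      pw s w u z.1 := by
    have h1 : ∑ z ∈ C.filter (fun z => z.2.1 = x ∧ z.1 = Sum.inl x.1), pw s w u z.1 =
        (C.filter (fun z => z.2.1 = x ∧ z.1 = Sum.inl x.1)).card * w x.1 := by
      rw [← smul_eq_mul, ← Finset.sum_const]
      refine Finset.sum_congr rfl fun z hz => ?_
      rw [(Finset.mem_filter.1 hz).2.2]
      rfl
    rw [h1, mul_comm]
    exact Nat.mul_le_mul_right _ Finset.card_image_le
  have hAH : w x.1 * H.card + u i * A.card < w x.1 + s i * u i := by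
    refine lt_of_le_of_lt (Nat.add_le_add hH hA) ?_
    rw [not_le] at hcon
    refine lt_of_le_of_lt (le_of_eq ?_) hcon
    have h1 := Finset.sum_filter_add_sum_filter_not (C.filter (fun z => z.2.1 = x))
      (fun z => z.1 = Sum.inl x.1) (fun z => pw s w u z.1)
    rw [Finset.filter_filter, Finset.filter_filter] at h1
    exact h1
  obtain ⟨L, hL, hLA, hLH⟩ := local_labelW (hs i)
    (fun S => some (⟨i, {S, Sᶜ}⟩ : Σ i, Finset (Finset (Fin (2 * s i))))) (by
      intro S S' h
      have h1 : ({S, Sᶜ} : Finset (Finset (Fin (2 * s i)))) = {S', S'ᶜ} := by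
        have h2 := Option.some.inj h
        exact eq_of_heq (Sigma.mk.inj h2).2
      have h3 : S ∈ ({S', S'ᶜ} : Finset (Finset (Fin (2 * s i)))) := by
        rw [← h1]; exact Finset.mem_insert_self _ _
      simpa using h3) A H _ _ hwu hu hAH
  -- the label wanted
  obtain ⟨L0, hL0, hL0L⟩ : ∃ L0 : Finset (Fin (2 * s i)), L0.card = s i ∧
      ((b = false ∧ L0 = L) ∨ (b = true ∧ L0 = Lᶜ)) := by
    cases b with
    | false => exact ⟨L, hL, Or.inl ⟨rfl, rfl⟩⟩
    | true =>
      refine ⟨Lᶜ, ?_, Or.inr ⟨rfl, rfl⟩⟩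
      rw [Finset.card_compl, Fintype.card_fin, hL]; omega
  have hrich := D.rich x i b hx L0 hL0
  obtain ⟨p, hp, hpbad⟩ : ∃ p ∈ D.Om.filter (fun p => On p x ∧ D.S i p = L0),
      p ∉ univ.filter (fun p : Pt F => On p x ∧ ∃ z ∈ C, z.2.1 ≠ x ∧ On p z.2.1) := by
    by_contra h
    push Not at h
    have := Finset.card_le_card (show D.Om.filter (fun p => On p x ∧ D.S i p = L0) ⊆
      univ.filter (fun p : Pt F => On p x ∧ ∃ z ∈ C, z.2.1 ≠ x ∧ On p z.2.1) from h)
    omega
  obtain ⟨hpO, hpx, hpS⟩ := Finset.mem_filter.1 hp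
  obtain ⟨k, hk⟩ := hC ⟨p, hpO⟩
  have hkx : (D.fn k ⟨p, hpO⟩).1 = x := by
    by_contra hne
    exact hpbad (Finset.mem_filter.2 ⟨Finset.mem_univ _, hpx, _, hk, hne, D.fn_on k ⟨p, hpO⟩⟩)
  rcases k with d | ⟨j, a⟩
  · -- a half
    have hdx : (d, icpt d p) = x := hkx
    apply hLH
    refine Finset.mem_image.2 ⟨_, Finset.mem_filter.2 ⟨hk, hkx, ?_⟩, ?_⟩
    · rw [← hdx]
    · show (D.typ (d, icpt d p)).map _ = _
      rw [hdx, hx]
      simp only [Option.map_some]
      rw [hpS]
      rcases hL0L with ⟨-, h⟩ | ⟨-, h⟩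
      · rw [h]
      · rw [h, compl_compl, Finset.pair_comm]
  · -- a colour
    by_cases ha : a ∈ D.S j p
    · have hxl : D.xl j false p = x := by
        have : (if a ∈ D.S j p then D.xl j false p else D.xl j true p) = x := hkx
        rwa [if_pos ha] at this
      have h1 : some (j, false) = some (i, b) := by
        rw [← D.xl_typ j false p, hxl, hx]
      have h2 := Option.some.inj h1
      obtain ⟨rfl, rfl⟩ := Prod.mk.inj h2
      rcases hL0L with ⟨-, h⟩ | ⟨h, -⟩
      · have haL : a ∈ L := by rw [← h, ← hpS]; exact ha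
        refine Finset.disjoint_left.1 hLA haL (Finset.mem_filter.2 ⟨Finset.mem_univ _, ?_⟩)
        have : D.fn (Sum.inr ⟨j, a⟩) ⟨p, hpO⟩ = (x, none) := by
          simp only [fn]
          rw [if_pos ha, hxl]
        rw [← this]
        exact hk
      · exact absurd h (by simp)
    · have hxl : D.xl j true p = x := by
        have : (if a ∈ D.S j p then D.xl j false p else D.xl j true p) = x := hkx
        rwa [if_neg ha] at this
      have h1 : some (j, true) = some (i, b) := by
        rw [← D.xl_typ j true p, hxl, hx]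
      have h2 := Option.some.inj h1
      obtain ⟨rfl, rfl⟩ := Prod.mk.inj h2
      rcases hL0L with ⟨h, -⟩ | ⟨-, h⟩
      · exact absurd h (by simp)
      · have haL : a ∈ L := by
          by_contra h'
          exact ha (by rw [hpS, h]; exact Finset.mem_compl.2 h')
        refine Finset.disjoint_left.1 hLA haL (Finset.mem_filter.2 ⟨Finset.mem_univ _, ?_⟩)
        have : D.fn (Sum.inr ⟨j, a⟩) ⟨p, hpO⟩ = (x, none) := by
          simp only [fn]
          rw [if_neg ha, hxl]
        rw [← this]
        exact hk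

omit [Field F] [Fintype F] [Fintype I] in
/-- weights of blocks over an injective family of lines -/
lemma sum_blocks_le {J : Type} [Fintype J] (C : Finset (Split.Part F s × Split.Blk F s))
    (g : Split.Part F s → ℕ) (y : J → Line F) (hy : Function.Injective y) :
    ∑ j, ∑ z ∈ C.filter (fun z => z.2.1 = y j), g z.1 ≤ ∑ z ∈ C, g z.1 := by
  classical
  rw [← Finset.sum_biUnion]
  · refine Finset.sum_le_sum_of_subset ?_
    intro z hz
    obtain ⟨j, -, hj⟩ := Finset.mem_biUnion.1 hz
    exact (Finset.mem_filter.1 hj).1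
  · intro i _ j _ hij
    rw [Function.onFun, Finset.disjoint_left]
    intro z hz hz'
    exact hij (hy ((Finset.mem_filter.1 hz).2.symm.trans (Finset.mem_filter.1 hz').2))

/-- On every point the classes contribute the full sum. -/
lemma sum_ext_pencil (D : WS F I s t) (g : I → ℕ) (v : Pt F) :
    ∑ i, 2 * g i ≤ ∑ d : Option F, ext g (D.typ (d, icpt d v)) := by
  classical
  have hx : ∀ i b, D.xl i b v = ((D.xl i b v).1, icpt (D.xl i b v).1 v) := by
    intro i b
    have := D.xl_on i b v
    exact Prod.ext rfl this.symm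
  have hinj : Function.Injective (fun ib : I × Bool => (D.xl ib.1 ib.2 v).1) := by
    rintro ⟨i, b⟩ ⟨j, c⟩ h
    have h' : D.xl i b v = D.xl j c v := by
      rw [hx i b, hx j c]
      have h2 : (D.xl i b v).1 = (D.xl j c v).1 := h
      rw [h2]
    have h1 : some (i, b) = some (j, c) := by
      rw [← D.xl_typ i b v, h', D.xl_typ]
    exact Option.some.inj h1
  have h1 : ∑ i, 2 * g i = ∑ ib : I × Bool, g ib.1 := by
    rw [Fintype.sum_prod_type]
    refine Finset.sum_congr rfl fun i _ => ?_
    simp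
  have h2 : ∑ ib : I × Bool, g ib.1 =
      ∑ ib : I × Bool, ext g (D.typ ((D.xl ib.1 ib.2 v).1, icpt (D.xl ib.1 ib.2 v).1 v)) := by
    refine Finset.sum_congr rfl fun ib _ => ?_
    rw [← hx ib.1 ib.2, D.xl_typ]
    rfl
  rw [h1, h2]
  rw [← Finset.sum_image (s := univ) (g := fun ib : I × Bool => (D.xl ib.1 ib.2 v).1)
    (f := fun d => ext g (D.typ (d, icpt d v))) (fun a _ b _ h => hinj h)]
  exact Finset.sum_le_sum_of_subset (Finset.subset_univ _)

/-- **The weighted cover theorem.** -/
theorem cover_le (D : WS F I s t) (hs : ∀ i, 1 ≤ s i) (w : Option F → ℕ) (u : I → ℕ) (m : ℕ)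
    (hmw : ∀ d, m ≤ w d) (hmu : ∀ i, m ≤ u i)
    (hwu : ∀ x i b, D.typ x = some (i, b) → w x.1 ≤ u i ∧ 2 * u i + w x.1 ≤ s i * w x.1)
    (hdir : ∀ d, ∑ d, w d + ∑ i, 2 * s i * u i ≤
      Fintype.card F * w d + ∑ c : F, ext (fun i => s i * u i) (D.typ (d, c)))
    (htot : ∑ d, w d + ∑ i, 2 * s i * u i ≤ m * (Fintype.card F + t + 1))
    (hT : t ^ 2 < Fintype.card F)
    (hrig : ∀ L : Finset (Line F), L.card ≤ Fintype.card F + t →
      (∀ p ∈ D.Om, ∃ x ∈ L, On p x) → ∀ p, ∃ x ∈ L, On p x)
    (C : Finset (Split.Part F s × Split.Blk F s)) (hC : ∀ v, ∃ k, (k, D.fn k v) ∈ C)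
    (hreal : ∀ z ∈ C, ∃ v, D.fn z.1 v = z.2) :
    ∑ d, w d + ∑ i, 2 * s i * u i ≤ ∑ z ∈ C, pw s w u z.1 := by
  classical
  by_contra hcon
  rw [not_le] at hcon
  have hmC : m * C.card ≤ ∑ z ∈ C, pw s w u z.1 := by
    rw [mul_comm, ← smul_eq_mul, ← Finset.sum_const]
    refine Finset.sum_le_sum fun z _ => ?_
    rcases z.1 with d | a
    · exact hmw d
    · exact hmu a.1
  have hCn : C.card ≤ Fintype.card F + t := by
    by_contra h
    have h1 : Fintype.card F + t + 1 ≤ C.card := by omega
    have h2 := Nat.mul_le_mul_left m h1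
    omega
  let L : Finset (Line F) := C.image fun z => z.2.1
  have hLn : L.card ≤ Fintype.card F + t := Finset.card_image_le.trans hCn
  have hLcov : ∀ p ∈ D.Om, ∃ x ∈ L, On p x := by
    intro p hp
    obtain ⟨k, hk⟩ := hC ⟨p, hp⟩
    exact ⟨_, Finset.mem_image.2 ⟨_, hk, rfl⟩, D.fn_on k ⟨p, hp⟩⟩
  have hall := hrig L hLn hLcov
  have hpos : ∀ x ∈ L, D.typ x = none →
      w x.1 ≤ ∑ z ∈ C.filter (fun z => z.2.1 = x), pw s w u z.1 := by
    intro x hx hxt
    obtain ⟨z, hz, hzx⟩ := Finset.mem_image.1 hx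
    obtain ⟨v, hv⟩ := hreal z hz
    have h1 : pw s w u z.1 = w x.1 := by
      rcases hz1 : z.1 with d | a
      · rw [hz1] at hv
        have h2 : (d, icpt d v.1) = x := by
          rw [← hzx, ← hv]
          rfl
        rw [← h2]
        rfl
      · exfalso
        rw [hz1] at hv
        have h2 : (if a.2 ∈ D.S a.1 v.1 then D.xl a.1 false v.1 else D.xl a.1 true v.1) = x := by
          rw [← hzx, ← hv]
          rfl
        split_ifs at h2
        · rw [← h2, D.xl_typ] at hxt
          exact absurd hxt (by simp)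
        · rw [← h2, D.xl_typ] at hxt
          exact absurd hxt (by simp)
    rw [← h1]
    have hz' : z ∈ C.filter (fun z => z.2.1 = x) := Finset.mem_filter.2 ⟨hz, hzx⟩
    exact Finset.single_le_sum (f := fun z => pw s w u z.1) (fun _ _ => Nat.zero_le _) hz'
  -- the line lemma for a line with few bad points
  have hline : ∀ x ∈ L, (univ.filter (fun p : Pt F => On p x ∧ ∃ z ∈ C, z.2.1 ≠ x ∧
      On p z.2.1)).card ≤ t →
      w x.1 + ext (fun i => s i * u i) (D.typ x) ≤
        ∑ z ∈ C.filter (fun z => z.2.1 = x), pw s w u z.1 := by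
    intro x hx hbad
    rcases ht : D.typ x with _ | ⟨i, b⟩
    · exact hpos x hx ht
    · have := D.line_lemma hs w u C hC ht (hwu x i b ht).1 (hwu x i b ht).2 hbad
      exact this
  rcases bruen_aux hLn hT hall with ⟨v, hv⟩ | ⟨d, hd⟩
  · -- a pencil
    have hinj : Function.Injective (fun d : Option F => ((d, icpt d v) : Line F)) := by
      intro d d' h
      exact (Prod.mk.inj h).1
    have hpen : (univ.image fun d : Option F => ((d, icpt d v) : Line F)).card =
        Fintype.card F + 1 := by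
      rw [Finset.card_image_of_injective _ hinj, Finset.card_univ, Fintype.card_option]
    have hM : (L \ (univ.image fun d : Option F => ((d, icpt d v) : Line F))).card + 1 ≤ t := by
      have hsub : (univ.image fun d : Option F => ((d, icpt d v) : Line F)) ⊆ L := by
        intro x hx
        obtain ⟨d, -, rfl⟩ := Finset.mem_image.1 hx
        exact hv d
      have := Finset.card_sdiff_add_card_eq_card hsub
      omega
    have hcount : ∀ d : Option F, w d + ext (fun i => s i * u i) (D.typ (d, icpt d v)) ≤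
        ∑ z ∈ C.filter (fun z => z.2.1 = (d, icpt d v)), pw s w u z.1 := by
      intro d
      refine hline _ (hv d) ?_
      set M := (L \ (univ.image fun d : Option F => ((d, icpt d v) : Line F))).filter
        (fun y => y.1 ≠ d) with hMdef
      have hsub : (univ.filter (fun p : Pt F => On p (d, icpt d v) ∧ ∃ z ∈ C,
          z.2.1 ≠ (d, icpt d v) ∧ On p z.2.1)) ⊆
          insert v (univ.filter (fun p : Pt F => On p (d, icpt d v) ∧ ∃ y ∈ M, On p y)) := by
        intro p hp
        obtain ⟨-, hpx, z, hz, hzx, hpz⟩ := Finset.mem_filter.1 hp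
        by_cases hpv : p = v
        · rw [hpv]; exact Finset.mem_insert_self _ _
        · refine Finset.mem_insert_of_mem (Finset.mem_filter.2 ⟨Finset.mem_univ _, hpx, z.2.1, ?_,
            hpz⟩)
          have hne : z.2.1.1 ≠ d := by
            intro e
            apply hzx
            refine Prod.ext e ?_
            have h1 : icpt z.2.1.1 p = z.2.1.2 := hpz
            have h2 : icpt d p = icpt d v := hpx
            rw [← h1, e, h2]
          refine Finset.mem_filter.2 ⟨Finset.mem_sdiff.2 ⟨Finset.mem_image.2 ⟨z, hz, rfl⟩, ?_⟩, hne⟩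
          intro hmem
          obtain ⟨d', -, hd'⟩ := Finset.mem_image.1 hmem
          apply hpv
          have h1 : icpt z.2.1.1 p = z.2.1.2 := hpz
          have h2 : icpt d p = icpt d v := hpx
          rw [← hd'] at h1 hne
          exact Bruen.eq_of_icpt hne h1 h2
      refine (Finset.card_le_card hsub).trans ((Finset.card_insert_le _ _).trans ?_)
      refine le_trans (Nat.add_le_add_right (Split.card_bad_le (d, icpt d v) M ?_) 1) ?_
      · intro y hy
        exact (Finset.mem_filter.1 hy).2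
      · exact (Nat.add_le_add_right (Finset.card_filter_le _ _) 1).trans hM
    have h1 := sum_blocks_le C (pw s w u) (fun d : Option F => ((d, icpt d v) : Line F)) hinj
    have h2 := Finset.sum_le_sum fun d (_ : d ∈ (univ : Finset (Option F))) => hcount d
    rw [Finset.sum_add_distrib] at h2
    have h3 := D.sum_ext_pencil (fun i => s i * u i) v
    have h4 : ∑ i, 2 * s i * u i = ∑ i, 2 * (s i * u i) :=
      Finset.sum_congr rfl fun i _ => by ring
    omega
  · -- a parallel class
    have hinj : Function.Injective (fun c : F => ((d, c) : Line F)) := by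
      intro c c' h
      exact (Prod.mk.inj h).2
    have hpen : (univ.image fun c : F => ((d, c) : Line F)).card = Fintype.card F := by
      rw [Finset.card_image_of_injective _ hinj, Finset.card_univ]
    have hcount : ∀ c : F, w d + ext (fun i => s i * u i) (D.typ (d, c)) ≤
        ∑ z ∈ C.filter (fun z => z.2.1 = (d, c)), pw s w u z.1 := by
      intro c
      refine hline _ (hd c) ?_
      set M := L.filter (fun y => y.1 ≠ d) with hMdef
      have hMc : M.card ≤ t := by
        have hsub : (univ.image fun c : F => ((d, c) : Line F)) ⊆ L := by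
          intro x hx
          obtain ⟨c, -, rfl⟩ := Finset.mem_image.1 hx
          exact hd c
        have h1 := Finset.card_sdiff_add_card_eq_card hsub
        have h2 : M ⊆ L \ (univ.image fun c : F => ((d, c) : Line F)) := by
          intro y hy
          obtain ⟨hy1, hy2⟩ := Finset.mem_filter.1 hy
          refine Finset.mem_sdiff.2 ⟨hy1, fun h => hy2 ?_⟩
          obtain ⟨c, -, rfl⟩ := Finset.mem_image.1 h
          rfl
        have h3 := Finset.card_le_card h2
        omega
      have hsub : (univ.filter (fun p : Pt F => On p (d, c) ∧ ∃ z ∈ C,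
          z.2.1 ≠ (d, c) ∧ On p z.2.1)) ⊆
          univ.filter (fun p : Pt F => On p (d, c) ∧ ∃ y ∈ M, On p y) := by
        intro p hp
        obtain ⟨-, hpx, z, hz, hzx, hpz⟩ := Finset.mem_filter.1 hp
        refine Finset.mem_filter.2 ⟨Finset.mem_univ _, hpx, z.2.1, ?_, hpz⟩
        refine Finset.mem_filter.2 ⟨Finset.mem_image.2 ⟨z, hz, rfl⟩, ?_⟩
        intro e
        apply hzx
        refine Prod.ext e ?_
        have h1 : icpt z.2.1.1 p = z.2.1.2 := hpz
        have h2 : icpt d p = c := hpx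
        rw [← h1, e, h2]
      refine (Finset.card_le_card hsub).trans ((Split.card_bad_le (d, c) M ?_).trans hMc)
      intro y hy
      exact (Finset.mem_filter.1 hy).2
    have h1 := sum_blocks_le C (pw s w u) (fun c : F => ((d, c) : Line F)) hinj
    have h2 := Finset.sum_le_sum fun c (_ : c ∈ (univ : Finset F)) => hcount c
    rw [Finset.sum_add_distrib, Finset.sum_const, Finset.card_univ] at h2
    have h3 := hdir d
    simp only [smul_eq_mul] at h2
    omega

/-- The weighted dual form of a system of split lines and labels. -/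
theorem wce (D : WS F I s t) (hne : D.Om.Nonempty) (hs : ∀ i, 1 ≤ s i) (w : Option F → ℕ)
    (u : I → ℕ) (m : ℕ) (hmw : ∀ d, m ≤ w d) (hmu : ∀ i, m ≤ u i)
    (hwu : ∀ x i b, D.typ x = some (i, b) → w x.1 ≤ u i ∧ 2 * u i + w x.1 ≤ s i * w x.1)
    (hdir : ∀ d, ∑ d, w d + ∑ i, 2 * s i * u i ≤
      Fintype.card F * w d + ∑ c : F, ext (fun i => s i * u i) (D.typ (d, c)))
    (htot : ∑ d, w d + ∑ i, 2 * s i * u i ≤ m * (Fintype.card F + t + 1))
    (hT : t ^ 2 < Fintype.card F)
    (hrig : ∀ L : Finset (Line F), L.card ≤ Fintype.card F + t →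
      (∀ p ∈ D.Om, ∃ x ∈ L, On p x) → ∀ p, ∃ x ∈ L, On p x) [DecidableEq I] :
    WCE (pw s w u) := by
  classical
  refine ⟨{p // p ∈ D.Om}, Split.Blk F s, inferInstance, inferInstance, inferInstance,
    inferInstance, D.fn, ?_, D.intersecting, ?_⟩
  · obtain ⟨p, hp⟩ := hne
    exact ⟨⟨p, hp⟩⟩
  · intro C hC
    rw [sum_pw]
    have h1 := D.cover_le hs w u m hmw hmu hwu hdir htot hT hrig
      (C.filter fun z => ∃ v, D.fn z.1 v = z.2) (by
        intro v
        obtain ⟨k, hk⟩ := hC v
        exact ⟨k, Finset.mem_filter.2 ⟨hk, v, rfl⟩⟩)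
      (fun z hz => (Finset.mem_filter.1 hz).2)
    exact h1.trans (Finset.sum_le_sum_of_subset (Finset.filter_subset _ _))

end WS

end Vale.Agent.P045.H332
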