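import Mathlib

/-!
# P045: products of powers of two multiplicatively independent numbers are dense in ratio
-/

namespace Vale.Agent.P045.H332

theorem dens_aux (x y : ℝ) (_hx : 0 < x) (hy : 0 < y) (p q : ℕ) (ε : ℝ)
    (h0 : 0 < (p : ℝ) * x - q * y) (h1 : (p : ℝ) * x - q * y < ε) :
    ∃ X0 : ℝ, ∀ X : ℝ, X0 ≤ X → ∃ a b : ℕ, (a : ℝ) * x + b * y ≤ X ∧
      X - ε < (a : ℝ) * x + b * y := by
  set η : ℝ := (p : ℝ) * x - q * y with hη
  obtain ⟨J, hJ⟩ : ∃ J : ℕ, y / η ≤ J := exists_nat_ge _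
  have hJη : y ≤ J * η := by
    rw [div_le_iff₀ h0] at hJ
    exact hJ
  refine ⟨(J * q : ℕ) * y, fun X hX => ?_⟩
  have hX0 : 0 ≤ X := le_trans (by positivity) hX
  set b0 : ℕ := ⌊X / y⌋₊ with hb0
  have hb1 : (b0 : ℝ) * y ≤ X := by
    have := Nat.floor_le (div_nonneg hX0 hy.le)
    rwa [le_div_iff₀ hy] at this
  have hb2 : X < (b0 + 1 : ℝ) * y := by
    have := Nat.lt_floor_add_one (X / y)
    rwa [div_lt_iff₀ hy] at this
  have hb3 : J * q ≤ b0 := by
    apply Nat.le_floor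
    rw [le_div_iff₀ hy]
    exact hX
  set i : ℕ := ⌊(X - b0 * y) / η⌋₊ with hi
  have hXb : 0 ≤ X - b0 * y := by linarith
  have hi1 : (i : ℝ) * η ≤ X - b0 * y := by
    have := Nat.floor_le (div_nonneg hXb h0.le)
    rwa [le_div_iff₀ h0] at this
  have hi2 : X - b0 * y < (i + 1 : ℝ) * η := by
    have := Nat.lt_floor_add_one ((X - b0 * y) / η)
    rwa [div_lt_iff₀ h0] at this
  have hiJ : i ≤ J := by
    have h2 : (i : ℝ) * η ≤ J * η := by
      have : X - b0 * y ≤ y := by linarith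
      linarith
    exact_mod_cast le_of_mul_le_mul_right h2 h0
  have hiq : i * q ≤ b0 := (Nat.mul_le_mul_right q hiJ).trans hb3
  refine ⟨i * p, b0 - i * q, ?_, ?_⟩
  · have : ((i * p : ℕ) : ℝ) * x + ((b0 - i * q : ℕ) : ℝ) * y = b0 * y + i * η := by
      rw [Nat.cast_sub hiq, hη]
      push_cast
      ring
    rw [this]
    linarith
  · have : ((i * p : ℕ) : ℝ) * x + ((b0 - i * q : ℕ) : ℝ) * y = b0 * y + i * η := by
      rw [Nat.cast_sub hiq, hη]
      push_cast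
      ring
    rw [this]
    linarith

theorem dens_log (x y : ℝ) (hx : 0 < x) (hy : 0 < y)
    (hind : ∀ k j : ℕ, 0 < k → (k : ℝ) * x ≠ j * y) (ε : ℝ) (hε : 0 < ε) :
    ∃ X0 : ℝ, ∀ X : ℝ, X0 ≤ X → ∃ a b : ℕ, (a : ℝ) * x + b * y ≤ X ∧
      X - ε < (a : ℝ) * x + b * y := by
  obtain ⟨n, hn⟩ : ∃ n : ℕ, y / ε < n := exists_nat_gt _
  have hn0 : 0 < n := by
    have : (0 : ℝ) < n := lt_trans (by positivity) hn
    exact_mod_cast this
  obtain ⟨j, k, hk, -, hjk⟩ := Real.exists_int_int_abs_mul_sub_le (x / y) hn0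
  have hn1 : (0 : ℝ) < n + 1 := by positivity
  have hle1 : 1 / ((n : ℝ) + 1) < 1 := by
    rw [div_lt_one hn1]
    have : (0 : ℝ) < n := by exact_mod_cast hn0
    linarith
  have hxy : 0 < x / y := div_pos hx hy
  have hkR : (0 : ℝ) < k := by exact_mod_cast hk
  have hj0 : 0 ≤ j := by
    have h1 := (abs_le.1 hjk).2
    have h2 : (0 : ℝ) < k * (x / y) := mul_pos hkR hxy
    have h3 : (-1 : ℝ) < j := by linarith
    have h4 : (-1 : ℤ) < j := by exact_mod_cast h3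
    omega
  obtain ⟨k', rfl⟩ := Int.eq_ofNat_of_zero_le hk.le
  obtain ⟨j', rfl⟩ := Int.eq_ofNat_of_zero_le hj0
  have hk' : 0 < k' := by exact_mod_cast hk
  have hne := hind k' j' hk'
  simp only [Int.cast_natCast] at hjk
  have hsm : y * (1 / ((n : ℝ) + 1)) < ε := by
    rw [mul_one_div, div_lt_iff₀ hn1]
    rw [div_lt_iff₀ hε] at hn
    nlinarith
  have e1 : (k' : ℝ) * x - j' * y = y * (k' * (x / y) - j') := by
    field_simp
  have hab : |(k' : ℝ) * x - j' * y| < ε := by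
    rw [e1, abs_mul, abs_of_pos hy]
    exact lt_of_le_of_lt (mul_le_mul_of_nonneg_left hjk hy.le) hsm
  rcases lt_or_gt_of_ne hne with h | h
  · obtain ⟨X0, hX0⟩ := dens_aux y x hy hx j' k' ε (by linarith) (by
      have := (abs_lt.1 hab).1
      linarith)
    refine ⟨X0, fun X hX => ?_⟩
    obtain ⟨a, b, h1, h2⟩ := hX0 X hX
    exact ⟨b, a, by linarith, by linarith⟩
  · exact dens_aux x y hx hy k' j' ε (by linarith) (abs_lt.1 hab).2

/-- Products `r₁ ^ a * r₂ ^ b` approximate every large number within a fixed ratio. -/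
theorem dens_nat (r₁ r₂ : ℕ) (h1 : 2 ≤ r₁) (h2 : 2 ≤ r₂)
    (hind : ∀ a b : ℕ, 0 < a → r₁ ^ a ≠ r₂ ^ b) (A C : ℕ) (hA : 0 < A) (hAC : A < C) :
    ∃ N0 : ℕ, ∀ N : ℕ, N0 ≤ N → ∃ a b : ℕ, r₁ ^ a * r₂ ^ b * A ≤ N ∧
      N ≤ r₁ ^ a * r₂ ^ b * C := by
  have hr1 : (1 : ℝ) < r₁ := by exact_mod_cast h1
  have hr2 : (1 : ℝ) < r₂ := by exact_mod_cast h2
  have hAR : (0 : ℝ) < A := by exact_mod_cast hA
  have hCR : (0 : ℝ) < C := by exact_mod_cast hA.trans hAC
  have hACR : (A : ℝ) < C := by exact_mod_cast hAC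
  obtain ⟨X0, hX0⟩ := dens_log (Real.log r₁) (Real.log r₂) (Real.log_pos hr1) (Real.log_pos hr2)
    (by
      intro k j hk h
      rw [← Real.log_pow, ← Real.log_pow] at h
      have h3 := Real.log_injOn_pos (Set.mem_Ioi.2 (pow_pos (by linarith) k))
        (Set.mem_Ioi.2 (pow_pos (by linarith) j)) h
      exact hind k j hk (by exact_mod_cast h3))
    (Real.log (C / A)) (Real.log_pos (by rw [one_lt_div hAR]; exact hACR))
  obtain ⟨N0, hN0⟩ : ∃ N0 : ℕ, A * Real.exp X0 ≤ N0 := exists_nat_ge _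
  refine ⟨N0, fun N hN => ?_⟩
  have hNR : A * Real.exp X0 ≤ (N : ℝ) := hN0.trans (by exact_mod_cast hN)
  have hNpos : (0 : ℝ) < N := lt_of_lt_of_le (by positivity) hNR
  obtain ⟨a, b, h3, h4⟩ := hX0 (Real.log (N / A)) (by
    rw [Real.le_log_iff_exp_le (by positivity), le_div_iff₀ hAR, mul_comm]
    exact hNR)
  have hP : (0 : ℝ) < (r₁ : ℝ) ^ a * (r₂ : ℝ) ^ b := by positivity
  have e1 : (a : ℝ) * Real.log r₁ + b * Real.log r₂ =
      Real.log ((r₁ : ℝ) ^ a * (r₂ : ℝ) ^ b) := by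
    rw [Real.log_mul (by positivity) (by positivity), Real.log_pow, Real.log_pow]
  rw [e1] at h3 h4
  refine ⟨a, b, ?_, ?_⟩
  · rw [Real.log_le_log_iff hP (by positivity), le_div_iff₀ hAR] at h3
    exact_mod_cast h3
  · rw [← Real.log_div (by positivity) (by positivity)] at h4
    have e2 : (N : ℝ) / A / (C / A) = N / C := by
      field_simp
    rw [e2, Real.log_lt_log_iff (by positivity) hP, div_lt_iff₀ hCR] at h4
    have h5 := h4.le
    exact_mod_cast h5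

end Vale.Agent.P045.H332
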