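import Vale.Agent.P045.H332.Cover

/-!
# P045: the weighted gadget theorem, and its form for the planes over `𝔽_(127^h)`
-/

namespace Vale.Agent.P045.H332

open Finset P045.LS

section
variable {F : Type} [Field F] [Fintype F] [DecidableEq F]

/-- **The weighted gadget theorem.** -/
theorem gadgetW {I : Type} [Fintype I] [DecidableEq I] (s : I → ℕ) (hs : ∀ i, 1 ≤ s i)
    (B : I → Bool → Finset (Line F)) (Ω : Finset (Pt F)) (hΩ : Ω.Nonempty)
    (hdisj : ∀ i b j c, (i, b) ≠ (j, c) → Disjoint (B i b) (B j c))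
    (hcov : ∀ i b p, ∃ x ∈ B i b, On p x)
    (huniq : ∀ p ∈ Ω, ∀ i b, ∀ x ∈ B i b, ∀ y ∈ B i b, On p x → On p y → x = y)
    (t : ℕ) (w : Option F → ℕ) (u : I → ℕ) (m : ℕ) (hmw : ∀ d, m ≤ w d) (hmu : ∀ i, m ≤ u i)
    (hwu : ∀ i b, ∀ x ∈ B i b, w x.1 ≤ u i ∧ 2 * u i + w x.1 ≤ s i * w x.1)
    (hdir : ∀ d : Option F, ∑ d, w d + ∑ i, 2 * s i * u i ≤
      Fintype.card F * w d + ∑ i, ∑ b, (s i * u i) * ((B i b).filter fun x => x.1 = d).card)
    (hbig : ∀ i b, ∀ x ∈ B i b, 2 * (t + 1) * (2 * s i).choose (s i) ≤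
      (Ω.filter fun p => On p x).card)
    (ht2 : t ^ 2 < Fintype.card F)
    (htot : ∑ d, w d + ∑ i, 2 * s i * u i ≤ m * (Fintype.card F + t + 1))
    (hrig : ∀ L : Finset (Line F), L.card ≤ Fintype.card F + t →
      (∀ p ∈ Ω, ∃ x ∈ L, On p x) → ∀ p, ∃ x ∈ L, On p x) :
    WCE (WS.pw s w u : Split.Part F s → ℕ) := by
  classical
  let typ : Line F → Option (I × Bool) := fun x =>
    if h : ∃ ib : I × Bool, x ∈ B ib.1 ib.2 then some h.choose else none
  have htyp : ∀ x i b, typ x = some (i, b) ↔ x ∈ B i b := by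
    intro x i b
    constructor
    · intro h
      by_cases h' : ∃ ib : I × Bool, x ∈ B ib.1 ib.2
      · have h1 : typ x = some h'.choose := dif_pos h'
        rw [h1] at h
        have h2 := Option.some.inj h
        have h3 := h'.choose_spec
        rw [h2] at h3
        exact h3
      · have h1 : typ x = none := dif_neg h'
        rw [h1] at h
        exact absurd h (by simp)
    · intro h
      have h' : ∃ ib : I × Bool, x ∈ B ib.1 ib.2 := ⟨(i, b), h⟩
      have h1 : typ x = some h'.choose := dif_pos h'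
      rw [h1]
      congr 1
      by_contra hne
      exact Finset.disjoint_left.1 (hdisj h'.choose.1 h'.choose.2 i b hne) h'.choose_spec h
  have hlab := fun i => pair_labels (s i) (B i) Ω
    (fun p hp b x hx y hy h1 h2 => huniq p hp i b x hx y hy h1 h2) t (hbig i)
  choose S hS1 hS2 using hlab
  choose xl hxl1 hxl2 using hcov
  let D : WS F I s t :=
    { Om := Ω
      typ := typ
      xl := xl
      S := S
      xl_on := hxl2
      xl_typ := fun i b p => (htyp _ i b).2 (hxl1 i b p)
      uniq := fun i b p hp x hpx hx => huniq p hp i b x ((htyp x i b).1 hx) _ (hxl1 i b p) hpx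
        (hxl2 i b p)
      cardS := fun i p _ => hS1 i p
      rich := fun x i b hx L hL => hS2 i b x ((htyp x i b).1 hx) L hL }
  refine D.wce hΩ hs w u m hmw hmu (fun x i b hx => hwu i b x ((htyp x i b).1 hx)) ?_ htot ht2 hrig
  intro d
  refine (hdir d).trans (Nat.add_le_add_left ?_ _)
  have h1 : ∀ c : F, ∑ i, ∑ b, (if (d, c) ∈ B i b then s i * u i else 0) ≤
      ext (fun i => s i * u i) (typ (d, c)) := by
    intro c
    rcases ht : typ (d, c) with _ | ⟨j, b'⟩
    · refine le_of_eq (Finset.sum_eq_zero fun i _ => Finset.sum_eq_zero fun b _ => ?_)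
      rw [if_neg]
      intro h
      rw [(htyp _ i b).2 h] at ht
      exact absurd ht (by simp)
    · have h2 : ∀ i b, (if (d, c) ∈ B i b then s i * u i else 0) =
          if (i, b) = (j, b') then s j * u j else 0 := by
        intro i b
        by_cases h : (d, c) ∈ B i b
        · have h3 := (htyp _ i b).2 h
          rw [ht] at h3
          have h4 := Option.some.inj h3
          rw [if_pos h, if_pos h4.symm, (Prod.mk.inj h4).1]
        · rw [if_neg h, if_neg]
          intro h3
          obtain ⟨rfl, rfl⟩ := Prod.mk.inj h3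
          exact h ((htyp _ _ _).1 ht)
      rw [← Fintype.sum_prod_type (f := fun ib : I × Bool =>
        if (d, c) ∈ B ib.1 ib.2 then s ib.1 * u ib.1 else 0)]
      rw [Finset.sum_congr rfl fun ib _ => h2 ib.1 ib.2]
      simp [P045.LS.ext]
  have h5 : ∑ c : F, ∑ i, ∑ b, (if (d, c) ∈ B i b then s i * u i else 0) =
      ∑ i, ∑ b, (s i * u i) * ((B i b).filter fun x => x.1 = d).card := by
    rw [Finset.sum_comm]
    refine Finset.sum_congr rfl fun i _ => ?_
    rw [Finset.sum_comm]
    refine Finset.sum_congr rfl fun b _ => ?_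
    rw [← Finset.sum_filter, Finset.sum_const, smul_eq_mul, mul_comm]
    congr 1
    refine Finset.card_bij (fun c _ => (d, c)) ?_ ?_ ?_
    · intro c hc
      exact Finset.mem_filter.2 ⟨(Finset.mem_filter.1 hc).2, rfl⟩
    · intro c _ c' _ h
      exact (Prod.mk.inj h).2
    · intro x hx
      obtain ⟨hx1, hx2⟩ := Finset.mem_filter.1 hx
      refine ⟨x.2, Finset.mem_filter.2 ⟨Finset.mem_univ _, ?_⟩, ?_⟩
      · rw [← hx2]; exact hx1
      · rw [← hx2]
  rw [← h5]
  exact Finset.sum_le_sum fun c _ => h1 c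

end

section Plane

variable {F : Type} [Field F] [Fintype F] [DecidableEq F] [Algebra (ZMod 127) F]

/-- rigidity of `Ω` for `q = 127`, `n` large, `t` small against `n` -/
theorem rigidT (hn : 127 ^ 5 ≤ Fintype.card F)
    (hco : Nat.Coprime (Module.finrank (ZMod 127) F) 126) (t : ℕ)
    (ht : 20 * (t + 1) ≤ Fintype.card F)
    (L : Finset (Line F)) (hL : L.card ≤ Fintype.card F + t)
    (hcov : ∀ p ∈ Om (ZMod 127) F, ∃ x ∈ L, On p x) : ∀ p, ∃ x ∈ L, On p x := by
  have hk : Fintype.card (ZMod 127) = 127 := ZMod.card 127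
  set n := Fintype.card F with hndef
  have h126 : Fintype.card (ZMod 127) - 1 = 126 := by rw [hk]
  have hco' : Nat.Coprime (Module.finrank (ZMod 127) F) (Fintype.card (ZMod 127) - 1) := by
    rw [h126]; exact hco
  refine rigid (Om (ZMod 127) F) t (2 * n / 127) (126 * (127 * n)) (126 * 253) (n / 7) ?_ ?_ ?_
    (wt (ZMod 127)) ?_ ?_ ?_ ?_ ?_ L hL hcov
  · have := pow5
    omega
  · intro x
    have h := card_line_Om_compl (k := ZMod 127) hco' x
    rw [hk, ← hndef] at h
    rw [Nat.le_div_iff_mul_le (by norm_num)]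
    linarith
  · have h := card_Om_compl (k := ZMod 127) (F := F)
    rw [hk, ← hndef] at h
    have h7 : n < 7 * (n / 7 + 1) := by omega
    have h3 : 2 * ((n / 7 + 2).choose 2) = (n / 7 + 2) * (n / 7 + 1) := by
      rw [Nat.choose_two_right]
      have : 2 ∣ (n/7+2) * (n/7+2-1) := by
        have := Nat.even_mul_succ_self (n/7+1)
        have h2 : (n/7+2) * (n/7+2-1) = (n/7+1) * (n/7+1+1) := by
          have : n/7+2-1 = n/7+1 := by omega
          rw [this]; ring
        rw [h2]; exact this.two_dvd
      rw [Nat.mul_div_cancel' this]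
      rfl
    set a := n / 7 with ha
    have h4 : n ^ 2 < 49 * (a + 1) ^ 2 := by nlinarith
    nlinarith
  · have h := sum_wt (k := ZMod 127) (F := F)
    rw [hk, ← hndef] at h
    exact h
  · norm_num
  · intro w hw
    have h := wt_through (k := ZMod 127) w hw
    rw [hk] at h
    exact h
  · have := pow5
    have h1 : 127 * (2 * n / 127) ≤ 2 * n := Nat.mul_div_le _ _
    have h2 : 7 * (n / 7) ≤ n := Nat.mul_div_le _ _
    omega
  · have := pow5
    have h1 : 127 * (2 * n / 127) ≤ 2 * n := Nat.mul_div_le _ _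
    have h2 : 7 * (n / 7) ≤ n := Nat.mul_div_le _ _
    omega

/-- every line has many points in `Ω` -/
theorem line_Om (hco : Nat.Coprime (Module.finrank (ZMod 127) F) 126) (x : Line F) :
    Fintype.card F ≤ 2 * ((Om (ZMod 127) F).filter fun p => On p x).card := by
  have hco' : Nat.Coprime (Module.finrank (ZMod 127) F) (Fintype.card (ZMod 127) - 1) := by
    rw [ZMod.card]; exact hco
  have h1 := card_line_Om_compl (k := ZMod 127) hco' x
  rw [ZMod.card] at h1
  have h2 : (Finset.univ.filter fun p : Pt F => On p x).card = Fintype.card F :=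
    Bruen.card_line x.1 x.2
  have h3 : (Finset.univ.filter fun p : Pt F => On p x).card =
      ((Om (ZMod 127) F).filter fun p => On p x).card +
        (Finset.univ.filter fun p => On p x ∧ p ∉ Om (ZMod 127) F).card := by
    rw [← Finset.card_union_of_disjoint]
    · congr 1
      ext p
      simp only [Finset.mem_filter, Finset.mem_univ, true_and, Finset.mem_union]
      tauto
    · rw [Finset.disjoint_left]
      intro p hp hp'
      simp only [Finset.mem_filter, Finset.mem_univ, true_and] at hp hp'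
      exact hp'.2 hp.1
  omega

/-- lines of two classes have different slopes -/
theorem slope_unique (hco : Nat.Coprime (Module.finrank (ZMod 127) F) 126)
    {j j' : Fin 63} {b b' : Bool} {x x' : Line F} (hx : x ∈ BB F (some j) b)
    (hx' : x' ∈ BB F (some j') b') (h : x.1 = x'.1) : j = j' := by
  have hco' : Nat.Coprime (Module.finrank (ZMod 127) F) (Fintype.card (ZMod 127) - 1) := by
    rw [ZMod.card]; exact hco
  have hx1 : x ∈ cls F (lam j b) := hx
  have hx2 : x' ∈ cls F (lam j' b') := hx'
  simp only [cls, Finset.mem_image, Finset.mem_filter, Finset.mem_univ, true_and] at hx1 hx2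
  obtain ⟨⟨z, a⟩, hz, rfl⟩ := hx1
  obtain ⟨⟨z', a'⟩, hz', rfl⟩ := hx2
  simp only at hz hz'
  have h1 := h
  simp only [lin, Option.some.injEq] at h1
  rw [linB_slope _ (lam_ne j b) z hz, linB_slope _ (lam_ne j' b') z' hz', neg_inj, inv_inj] at h1
  have h2 := congrArg (Algebra.norm (ZMod 127)) h1
  rw [map_mul, map_mul, linB_norm_pow z hz, linB_norm_pow z' hz', mul_one, mul_one,
    Algebra.norm_algebraMap, Algebra.norm_algebraMap] at h2
  exact (lam_inj (linB_pow_inj hco' _ _ (lam_ne j b) (lam_ne j' b') h2)).1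

theorem BB_termW (g : II → ℕ) (i : II) (b : Bool) (d : Option F) :
    g i * ((BB F i b).filter fun x => x.1 = d).card ≤
      ∑ i, ∑ b, g i * ((BB F i b).filter fun x => x.1 = d).card := by
  refine le_trans ?_ (Finset.single_le_sum
    (f := fun i => ∑ b, g i * ((BB F i b).filter fun x => x.1 = d).card)
    (fun _ _ => Nat.zero_le _) (Finset.mem_univ i))
  exact Finset.single_le_sum
    (f := fun b => g i * ((BB F i b).filter fun x => x.1 = d).card)
    (fun _ _ => Nat.zero_le _) (Finset.mem_univ b)

/-- **The weighted gadget theorem for the plane over `F`**, `|F| = 127 ^ h`. -/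
theorem plane (hn : 127 ^ 5 ≤ Fintype.card F)
    (hco : Nat.Coprime (Module.finrank (ZMod 127) F) 126)
    (s : II → ℕ) (hs : ∀ i, 1 ≤ s i) (t : ℕ) (w : Option F → ℕ) (u : II → ℕ) (m : ℕ)
    (hmw : ∀ d, m ≤ w d) (hmu : ∀ i, m ≤ u i)
    (hwu : ∀ i b, ∀ x ∈ BB F i b, w x.1 ≤ u i ∧ 2 * u i + w x.1 ≤ s i * w x.1)
    (hd0 : ∀ d, ∑ d, w d + ∑ i, 2 * s i * u i ≤
      Fintype.card F * w d + s none * u none * Fintype.card F)
    (hd1 : ∀ d j, ∑ d, w d + ∑ i, 2 * s i * u i ≤
      Fintype.card F * w d + s (some j) * u (some j) * 127)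
    (hbig : ∀ i, 4 * (t + 1) * (2 * s i).choose (s i) ≤ Fintype.card F)
    (ht2 : t ^ 2 < Fintype.card F) (ht20 : 20 * (t + 1) ≤ Fintype.card F)
    (htot : ∑ d, w d + ∑ i, 2 * s i * u i ≤ m * (Fintype.card F + t + 1)) :
    WCE (WS.pw s w u : Split.Part F s → ℕ) := by
  have hco' : Nat.Coprime (Module.finrank (ZMod 127) F) (Fintype.card (ZMod 127) - 1) := by
    rw [ZMod.card]; exact hco
  refine gadgetW s hs (BB F) (Om (ZMod 127) F) (Om_nonempty hn hco) (BB_disj hco) BB_cov
    (fun p hp i b x hx y hy => BB_uniq p hp i b x hx y hy) t w u m hmw hmu hwu ?_ ?_ ht2 htot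
    (fun L hL hcov => rigidT hn hco t ht20 L hL hcov)
  · intro d
    rcases d with _ | m
    · refine (hd0 none).trans (Nat.add_le_add_left ?_ _)
      refine le_trans (le_of_eq ?_) (BB_termW (fun i => s i * u i) none false none)
      have : ((BB F none false).filter fun x => x.1 = none) =
          (Finset.univ.filter fun x : Line F => x.1 = none) := by
        ext x; simp [BB]
      rw [this, card_dir]
    · by_cases hm : m = 0
      · subst hm
        refine (hd0 (some 0)).trans (Nat.add_le_add_left ?_ _)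
        refine le_trans (le_of_eq ?_) (BB_termW (fun i => s i * u i) none true (some 0))
        have : ((BB F none true).filter fun x => x.1 = some 0) =
            (Finset.univ.filter fun x : Line F => x.1 = some 0) := by
          ext x; simp [BB]
        rw [this, card_dir]
      · obtain ⟨l, hl, hcard⟩ := cls_dir (k := ZMod 127) hco' m hm
        obtain ⟨j, b, rfl⟩ := lam_surj l hl
        refine (hd1 (some m) j).trans (Nat.add_le_add_left ?_ _)
        refine le_trans ?_ (BB_termW (fun i => s i * u i) (some j) b (some m))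
        rw [ZMod.card] at hcard
        exact Nat.mul_le_mul_left _ hcard
  · intro i b x _
    have h1 := line_Om hco x
    have h2 := hbig i
    have h3 : 4 * (t + 1) * (2 * s i).choose (s i) =
        2 * (2 * (t + 1) * (2 * s i).choose (s i)) := by ring
    omega

end Plane

end Vale.Agent.P045.H332
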