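import Vale.Agent.P045.H332.Run

/-!
# P045: Ryser's conjecture fails for all sufficiently large `r`
-/

namespace Vale.Agent.P045.H332

open Vale.Agent.P045 P045.LS

theorem all_large : ∃ r₀ : ℕ, ∀ r : ℕ, r₀ ≤ r →
    (∃ (V : Type) (_ : Fintype V) (H : PartiteHypergraph r V),
      H.IsIntersecting ∧ H.matchingNumber = 1 ∧ H.coveringNumber = r) ∧
    ∀ m : ℕ, ∃ (V : Type) (_ : Fintype V) (H : PartiteHypergraph r V),
      H.matchingNumber = m ∧ H.coveringNumber = r * m := by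
  obtain ⟨r₀, h₀⟩ := dualCE_all_large
  refine ⟨r₀ + 1, fun r hr => ?_⟩
  obtain ⟨V, iV, H, hI, hν, hτ⟩ := exists_hypergraph (h₀ r (by omega))
  refine ⟨⟨V, iV, H, hI, hν, hτ⟩, fun m => ?_⟩
  obtain ⟨H', h2, h3⟩ := exists_copies H hI (by omega) hτ m
  exact ⟨Fin m × V, inferInstance, H', h2, h3⟩

end Vale.Agent.P045.H332
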