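import Vale.Agent.P045.H332.Gadget

/-!
# P045: two families of weights on the planes over `𝔽_(127^h)`
-/

namespace Vale.Agent.P045.H332

open Finset P045.LS

variable {F : Type} [Field F] [Fintype F] [DecidableEq F] [Algebra (ZMod 127) F]

omit [Field F] [Algebra (ZMod 127) F] in
theorem dualCE_of_pw {s : II → ℕ} {w : Option F → ℕ} {u : II → ℕ}
    (h : WCE (WS.pw s w u : Split.Part F s → ℕ)) (hw : ∀ d, DualCE (w d))
    (hu : ∀ i, DualCE (u i)) : DualCE (∑ d, w d + ∑ i, 2 * s i * u i) := by
  have h1 := dualCE_of_wce h (by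
    rintro (d | a)
    · exact hw d
    · exact hu a.1)
  rw [WS.sum_pw] at h1
  exact h1

/-- weights `V`, `V + 1` on the directions, `V + 1` on the colours, except that the colours of the
special class have weight `V + 1 + k` -/
theorem near (hn : 127 ^ 5 ≤ Fintype.card F)
    (hco : Nat.Coprime (Module.finrank (ZMod 127) F) 126) (s V a k : ℕ) (hs : 10 ≤ s)
    (ha : a ≤ Fintype.card F + 1) (hV : Fintype.card F + 1 + (126 * s + 8) + 8 * k ≤ V)
    (hbig : 4 * (126 * s + 10) * (2 * s).choose s ≤ Fintype.card F)
    (h4 : 4 * (126 * s + 10) * 70 ≤ Fintype.card F)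
    (hsq : (126 * s + 9) ^ 2 < Fintype.card F)
    (h1 : DualCE V) (h2 : DualCE (V + 1)) (h3 : DualCE (V + 1 + k)) :
    DualCE ((Fintype.card F + 1) * V + a + (126 * s + 8) * (V + 1) + 8 * k) := by
  classical
  set n := Fintype.card F with hndef
  obtain ⟨M, hM⟩ : ∃ M : Finset (Option F), M.card = a := by
    obtain ⟨M, -, hM⟩ := Finset.exists_subset_card_eq
      (show a ≤ (univ : Finset (Option F)).card by
        rw [Finset.card_univ, Fintype.card_option]; exact ha)
    exact ⟨M, hM⟩
  let w : Option F → ℕ := fun d => if d ∈ M then V + 1 else V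
  let s' : II → ℕ := fun i => match i with
    | none => 4
    | some _ => s
  let u : II → ℕ := fun i => match i with
    | none => V + 1 + k
    | some _ => V + 1
  have hwd : ∀ d, V ≤ w d ∧ w d ≤ V + 1 := by
    intro d
    simp only [w]
    split_ifs <;> omega
  have hsw : ∑ d, w d = (n + 1) * V + a := by
    have e1 : ∀ d, w d = V + (if d ∈ M then 1 else 0) := by
      intro d
      simp only [w]
      split_ifs <;> rfl
    rw [Finset.sum_congr rfl fun d _ => e1 d, Finset.sum_add_distrib, Finset.sum_const,
      Finset.card_univ, Fintype.card_option, smul_eq_mul, ← hndef]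
    congr 1
    rw [Finset.sum_ite_mem, Finset.univ_inter, Finset.sum_const, smul_eq_mul, mul_one, hM]
  have hsu : ∑ i, 2 * s' i * u i = 8 * (V + 1 + k) + 126 * s * (V + 1) := by
    rw [Fintype.sum_option]
    simp only [s', u, Finset.sum_const, Finset.card_univ, Fintype.card_fin, smul_eq_mul]
    ring
  have htotal : ∑ d, w d + ∑ i, 2 * s' i * u i =
      (n + 1) * V + a + (126 * s + 8) * (V + 1) + 8 * k := by
    rw [hsw, hsu]
    ring
  rw [← htotal]
  have hTn : 126 * s + 8 ≤ n := by omega
  have hprod : (126 * s + 8) * (V + 1) ≤ n * (V + 1) := Nat.mul_le_mul_right _ hTn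
  refine dualCE_of_pw ?_ ?_ ?_
  · refine plane hn hco s' ?_ (126 * s + 9) w u V (fun d => (hwd d).1) ?_ ?_ ?_ ?_ ?_ hsq ?_ ?_
    · rintro (_ | j)
      · show 1 ≤ 4
        omega
      · show 1 ≤ s
        omega
    · rintro (_ | j)
      · show V ≤ V + 1 + k
        omega
      · show V ≤ V + 1
        omega
    · rintro (_ | j) b x -
      · have := hwd x.1
        show w x.1 ≤ V + 1 + k ∧ 2 * (V + 1 + k) + w x.1 ≤ 4 * w x.1
        omega
      · have := hwd x.1
        show w x.1 ≤ V + 1 ∧ 2 * (V + 1) + w x.1 ≤ s * w x.1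
        refine ⟨by omega, ?_⟩
        have h5 : 10 * w x.1 ≤ s * w x.1 := Nat.mul_le_mul_right _ hs
        omega
    · intro d
      rw [htotal]
      show _ ≤ n * w d + 4 * (V + 1 + k) * n
      have h5 : n * V ≤ n * w d := Nat.mul_le_mul_left _ (hwd d).1
      have h6 : 3 * V ≤ 3 * (n * (V + 1)) := by
        have : 1 ≤ n := by omega
        nlinarith
      have h7 : 0 ≤ n * k := Nat.zero_le _
      nlinarith
    · intro d j
      rw [htotal]
      show _ ≤ n * w d + s * (V + 1) * 127
      have h5 : n * V ≤ n * w d := Nat.mul_le_mul_left _ (hwd d).1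
      have h6 : 10 * (V + 1) ≤ s * (V + 1) := Nat.mul_le_mul_right _ hs
      nlinarith
    · rintro (_ | j)
      · show 4 * (126 * s + 9 + 1) * (2 * 4).choose 4 ≤ n
        have : (2 * 4).choose 4 = 70 := by decide
        rw [this]
        omega
      · show 4 * (126 * s + 9 + 1) * (2 * s).choose s ≤ n
        exact hbig
    · omega
    · rw [htotal]
      nlinarith
  · intro d
    simp only [w]
    split_ifs
    · exact h2
    · exact h1
  · rintro (_ | j)
    · exact h3
    · exact h2

/-- one direction and the colours of its class have weight `ρ`, all other weights are `1` -/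
theorem big (hn : 127 ^ 5 ≤ Fintype.card F)
    (hco : Nat.Coprime (Module.finrank (ZMod 127) F) 126) (ρ S1 c : ℕ) (hρ : DualCE ρ)
    (hρ1 : 1 ≤ ρ) (hS1 : 2 * ρ + 1 ≤ S1) (hc : 4 ≤ c) (hX : ρ + 2 * c ≤ S1 * ρ)
    (hbig : 512 * (S1 * ρ) * 2 ^ (2 * (S1 * ρ)) ≤ Fintype.card F) :
    DualCE (Fintype.card F + ρ + 126 * (S1 * ρ) + 2 * c) := by
  classical
  have hco' : Nat.Coprime (Module.finrank (ZMod 127) F) (Fintype.card (ZMod 127) - 1) := by
    rw [ZMod.card]; exact hco
  set n := Fintype.card F with hndef
  obtain ⟨X, hXdef⟩ : ∃ X, X = S1 * ρ := ⟨_, rfl⟩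
  rw [← hXdef] at hX hbig ⊢
  have hX9 : 9 ≤ X := by omega
  -- the class of the slope `1`
  obtain ⟨l, hl, hcard⟩ := cls_dir (k := ZMod 127) hco' (1 : F) one_ne_zero
  obtain ⟨j0, b0, rfl⟩ := lam_surj l hl
  rw [ZMod.card] at hcard
  obtain ⟨x0, hx0⟩ := Finset.card_pos.1 (lt_of_lt_of_le (by norm_num) hcard)
  obtain ⟨hx0, hx01⟩ := Finset.mem_filter.1 hx0
  let w : Option F → ℕ := fun d => if d = some 1 then ρ else 1
  let s' : II → ℕ := fun i => match i with
    | none => c
    | some j => if j = j0 then S1 else X
  let u : II → ℕ := fun i => match i with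
    | none => 1
    | some j => if j = j0 then ρ else 1
  have hw1 : ∀ d, 1 ≤ w d := by
    intro d
    simp only [w]
    split_ifs <;> omega
  have hsw : ∑ d, w d = n + ρ := by
    rw [← Finset.add_sum_erase _ _ (Finset.mem_univ (some (1 : F)))]
    have e1 : ∑ d ∈ (univ : Finset (Option F)).erase (some 1), w d =
        ∑ d ∈ (univ : Finset (Option F)).erase (some 1), 1 :=
      Finset.sum_congr rfl fun d hd => if_neg (Finset.ne_of_mem_erase hd)
    rw [e1, Finset.sum_const, Finset.card_erase_of_mem (Finset.mem_univ _), Finset.card_univ,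
      Fintype.card_option, smul_eq_mul, mul_one]
    have e2 : w (some 1) = ρ := if_pos rfl
    rw [e2]
    omega
  have hsuj : ∀ j, s' (some j) * u (some j) = X := by
    intro j
    simp only [s', u]
    split_ifs
    · exact hXdef.symm
    · exact mul_one _
  have hsu : ∑ i, 2 * s' i * u i = 2 * c + 126 * X := by
    rw [Fintype.sum_option]
    have e1 : ∀ j : Fin 63, 2 * s' (some j) * u (some j) = 2 * X := by
      intro j
      rw [mul_assoc, hsuj]
    rw [Finset.sum_congr rfl fun j _ => e1 j]
    simp only [s', u, Finset.sum_const, Finset.card_univ, Fintype.card_fin, smul_eq_mul]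
    ring
  have htotal : ∑ d, w d + ∑ i, 2 * s' i * u i = n + ρ + 126 * X + 2 * c := by
    rw [hsw, hsu]
    ring
  rw [← htotal]
  -- `n` is large
  have hX2 : X < 2 ^ X := Nat.lt_pow_self (by norm_num)
  have h512 : 512 ≤ 2 ^ X := by
    calc 512 = 2 ^ 9 := by norm_num
      _ ≤ 2 ^ X := Nat.pow_le_pow_right (by norm_num) hX9
  have h32 : 512 * X ≤ 2 ^ (2 * X) := by
    have : 2 ^ (2 * X) = 2 ^ X * 2 ^ X := by rw [two_mul, pow_add]
    rw [this]
    exact Nat.mul_le_mul h512 hX2.le
  have hnX : 512 * X * (512 * X) ≤ n :=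
    (Nat.mul_le_mul_left _ h32).trans hbig
  have hnX1 : 4608 * (512 * X) ≤ n := by
    refine le_trans (Nat.mul_le_mul_right _ ?_) hnX
    omega
  have hchoose : ∀ i, (2 * s' i).choose (s' i) ≤ 2 ^ (2 * X) := by
    intro i
    refine (Nat.choose_le_two_pow _ _).trans (Nat.pow_le_pow_right (by norm_num) ?_)
    rcases i with _ | j
    · show 2 * c ≤ 2 * X
      omega
    · have hS1X : S1 ≤ X := by
        rw [hXdef]
        exact Nat.le_mul_of_pos_right _ hρ1
      simp only [s']
      split_ifs <;> omega
  refine dualCE_of_pw ?_ ?_ ?_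
  · refine plane hn hco s' ?_ (127 * X) w u 1 hw1 ?_ ?_ ?_ ?_ ?_ ?_ ?_ ?_
    · rintro (_ | j)
      · show 1 ≤ c
        omega
      · simp only [s']
        split_ifs <;> omega
    · rintro (_ | j)
      · exact le_rfl
      · simp only [u]
        split_ifs <;> omega
    · rintro (_ | j) b x hx
      · have hxne : x.1 ≠ some 1 := by
          intro h
          cases b <;> simp only [BB, Finset.mem_filter, Finset.mem_univ, true_and] at hx
          · rw [hx] at h
            exact absurd h (by simp)
          · rw [hx] at h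
            exact zero_ne_one (Option.some.inj h)
        have e1 : w x.1 = 1 := if_neg hxne
        rw [e1]
        show 1 ≤ 1 ∧ 2 * 1 + 1 ≤ c * 1
        omega
      · by_cases hj : j = j0
        · have e1 : s' (some j) = S1 := if_pos hj
          have e2 : u (some j) = ρ := if_pos hj
          rw [e1, e2]
          simp only [w]
          split_ifs
          · refine ⟨le_rfl, ?_⟩
            have : 3 * ρ ≤ S1 * ρ := Nat.mul_le_mul_right _ (by omega)
            omega
          · omega
        · have e1 : s' (some j) = X := if_neg hj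
          have e2 : u (some j) = 1 := if_neg hj
          have hxne : x.1 ≠ some 1 := by
            intro h
            exact hj (slope_unique hco hx (show x0 ∈ BB F (some j0) b0 from hx0)
              (h.trans hx01.symm))
          have e3 : w x.1 = 1 := if_neg hxne
          rw [e1, e2, e3]
          omega
    · intro d
      rw [htotal]
      show _ ≤ n * w d + c * 1 * n
      have h5 : n * 1 ≤ n * w d := Nat.mul_le_mul_left _ (hw1 d)
      have h6 : 4 * n ≤ c * n := Nat.mul_le_mul_right _ hc
      rw [mul_one]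
      omega
    · intro d j
      rw [htotal, hsuj]
      show _ ≤ n * w d + X * 127
      have h5 : n * 1 ≤ n * w d := Nat.mul_le_mul_left _ (hw1 d)
      omega
    · intro i
      refine le_trans (Nat.mul_le_mul_left _ (hchoose i)) (le_trans (Nat.mul_le_mul_right _ ?_) hbig)
      omega
    · calc (127 * X) ^ 2 = 16129 * (X * X) := by ring
        _ < 512 * X * (512 * X) := by nlinarith
        _ ≤ n := hnX
    · omega
    · rw [htotal]
      omega
  · intro d
    simp only [w]
    split_ifs
    · exact hρ
    · exact dualCE_one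
  · rintro (_ | j)
    · exact dualCE_one
    · simp only [u]
      split_ifs
      · exact hρ
      · exact dualCE_one

end Vale.Agent.P045.H332
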