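import Vale.Agent.P045.H332.Patterns
import Vale.Agent.P045.H332.Dense

/-!
# P045: every sufficiently large `r` is dual-extremal
-/

namespace Vale.Agent.P045.H332

open Finset P045.LS

theorem big127 (h : ℕ) (h5 : 5 ≤ h) (hco : Nat.Coprime h 126) (ρ S1 c : ℕ) (hρ : DualCE ρ)
    (hρ1 : 1 ≤ ρ) (hS1 : 2 * ρ + 1 ≤ S1) (hc : 4 ≤ c) (hX : ρ + 2 * c ≤ S1 * ρ)
    (hbig : 512 * (S1 * ρ) * 2 ^ (2 * (S1 * ρ)) ≤ 127 ^ h) :
    DualCE (127 ^ h + ρ + 126 * (S1 * ρ) + 2 * c) := by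
  classical
  have : Fact (Nat.Prime 127) := ⟨by norm_num⟩
  have : Fintype (GaloisField 127 h) := Fintype.ofFinite _
  have hcard : Fintype.card (GaloisField 127 h) = 127 ^ h := by
    rw [← Nat.card_eq_fintype_card]
    exact GaloisField.card 127 h (by omega)
  have hfin : Module.finrank (ZMod 127) (GaloisField 127 h) = h :=
    GaloisField.finrank 127 (by omega)
  have key := big (F := GaloisField 127 h)
    (by rw [hcard]; exact Nat.pow_le_pow_right (by norm_num) h5) (by rw [hfin]; exact hco)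
    ρ S1 c hρ hρ1 hS1 hc hX (by rw [hcard]; exact hbig)
  rw [hcard] at key
  exact key

theorem near127 (s V a k : ℕ) (hs : s = 10 ∨ s = 11)
    (ha : a ≤ 127 ^ 5 + 1) (hV : 127 ^ 5 + 1 + (126 * s + 8) + 8 * k ≤ V)
    (h1 : DualCE V) (h2 : DualCE (V + 1)) (h3 : DualCE (V + 1 + k)) :
    DualCE ((127 ^ 5 + 1) * V + a + (126 * s + 8) * (V + 1) + 8 * k) := by
  classical
  have : Fact (Nat.Prime 127) := ⟨by norm_num⟩
  have : Fintype (GaloisField 127 5) := Fintype.ofFinite _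
  have hcard : Fintype.card (GaloisField 127 5) = 127 ^ 5 := by
    rw [← Nat.card_eq_fintype_card]
    exact GaloisField.card 127 5 (by omega)
  have hfin : Module.finrank (ZMod 127) (GaloisField 127 5) = 5 :=
    GaloisField.finrank 127 (by omega)
  have c10 : (2 * 10).choose 10 = 184756 := by decide
  have c11 : (2 * 11).choose 11 = 705432 := by decide
  have key := near (F := GaloisField 127 5)
    (by rw [hcard]) (by rw [hfin]; norm_num) s V a k (by omega) (by rw [hcard]; exact ha)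
    (by rw [hcard]; exact hV)
    (by rw [hcard]; rcases hs with rfl | rfl
        · rw [c10]; norm_num
        · rw [c11]; norm_num)
    (by rw [hcard]; rcases hs with rfl | rfl <;> norm_num)
    (by rw [hcard]; rcases hs with rfl | rfl <;> norm_num) h1 h2 h3
  rw [hcard] at key
  exact key

/-- a run of good numbers -/
def Run (A B : ℕ) : Prop := ∀ N : ℕ, A ≤ N → N ≤ B → DualCE N

/-- long runs exist, arbitrarily far out -/
theorem initial_run (ρ : ℕ) (hρ : DualCE ρ) (hρ2 : Even ρ) (hρ3 : 2000 ≤ ρ) (L : ℕ) :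
    ∃ A : ℕ, L ≤ A ∧ Run A (A + 1000) := by
  obtain ⟨X, hX⟩ : ∃ X, X = (2 * ρ + 1) * ρ := ⟨_, rfl⟩
  obtain ⟨g, hg⟩ : ∃ g, g = L + 512 * X * 2 ^ (2 * X) := ⟨_, rfl⟩
  obtain ⟨h, hh⟩ : ∃ h, h = 126 * g + 5 := ⟨_, rfl⟩
  have hgh : g ≤ 127 ^ h := by
    calc g ≤ 127 ^ g := (Nat.lt_pow_self (by norm_num)).le
      _ ≤ 127 ^ h := Nat.pow_le_pow_right (by norm_num) (by omega)
  have hco : Nat.Coprime h 126 := by
    rw [hh, Nat.coprime_mul_left_add_left]
    norm_num
  have h5 : 5 ≤ h := by omega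
  have hXρ : 2 * ρ + 4000 ≤ X := by
    rw [hX]
    nlinarith
  refine ⟨127 ^ h + ρ + 126 * X + 8, by omega, ?_⟩
  intro N hN1 hN2
  obtain ⟨y, rfl⟩ : ∃ y, N = 127 ^ h + ρ + 126 * X + 8 + y := ⟨N - (127 ^ h + ρ + 126 * X + 8), by
    omega⟩
  have hy : y ≤ 1000 := by omega
  rcases Nat.even_or_odd' y with ⟨z, rfl | rfl⟩
  · have key := big127 h h5 hco ρ (2 * ρ + 1) (4 + z) hρ (by omega) le_rfl (by omega)
      (by rw [← hX]; omega) (by rw [← hX]; omega)
    rw [← hX] at key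
    convert key using 1
    ring
  · obtain ⟨σ, hσ⟩ := hρ2
    have key := big127 h h5 hco 1 X (σ + 4 + z) dualCE_one le_rfl (by omega) (by omega)
      (by rw [mul_one]; omega) (by rw [mul_one]; omega)
    rw [mul_one] at key
    convert key using 1
    rw [hσ]
    ring

/-- transfer of runs -/
theorem step (s : ℕ) (hs : s = 10 ∨ s = 11) (r : ℕ) (hr : r = 127 ^ 5 + 1 + (126 * s + 8))
    {A B : ℕ} (hA : 127 ^ 5 + 4000 ≤ A) (hrun : Run A B) :
    Run (r * A + (126 * s + 8)) (r * (B - 175)) := by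
  intro N hN1 hN2
  obtain ⟨T, hT⟩ : ∃ T, T = 126 * s + 8 := ⟨_, rfl⟩
  have hT2 : 1268 ≤ T ∧ T ≤ 1394 := by omega
  rw [← hT] at hN1 hr
  have hr0 : 0 < r := by omega
  obtain ⟨V, hV⟩ : ∃ V, V = (N - T) / r := ⟨_, rfl⟩
  obtain ⟨c, hc⟩ : ∃ c, c = (N - T) % r := ⟨_, rfl⟩
  have hdiv : r * V + c = N - T := by rw [hV, hc]; exact Nat.div_add_mod _ _
  have hcr : c < r := by rw [hc]; exact Nat.mod_lt _ hr0
  have hVA : A ≤ V := by
    rw [hV, Nat.le_div_iff_mul_le hr0, mul_comm]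
    omega
  have hVB : V < B - 175 := by
    rw [hV, Nat.div_lt_iff_lt_mul hr0, mul_comm]
    omega
  have hNe : N = r * V + (T + c) := by omega
  have key : ∀ a k, a ≤ 127 ^ 5 + 1 → k ≤ 175 → a + 8 * k = c → DualCE N := by
    intro a k ha hk hak
    have h := near127 s V a k hs ha (by omega) (hrun V hVA (by omega))
      (hrun (V + 1) (by omega) (by omega)) (hrun (V + 1 + k) (by omega) (by omega))
    rw [← hT] at h
    have e : N = (127 ^ 5 + 1) * V + a + T * (V + 1) + 8 * k := by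
      rw [hNe, hr, ← hak]
      ring
    rw [e]
    exact h
  by_cases h : c ≤ 127 ^ 5 + 1
  · exact key c 0 h (by omega) (by omega)
  · obtain ⟨c', hc'⟩ : ∃ c', c = 127 ^ 5 + 1 + c' := ⟨c - (127 ^ 5 + 1), by omega⟩
    have h2 : c' < T := by omega
    refine key (c - 8 * ((c' + 7) / 8)) ((c' + 7) / 8) ?_ ?_ ?_ <;> omega

theorem dualCE_all_large : ∃ r₀ : ℕ, ∀ r : ℕ, r₀ ≤ r → DualCE r := by
  have hρ : DualCE (127 ^ 5 + 5 * 127) := dualCE_main 5 le_rfl (by norm_num)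
  obtain ⟨A, hA, hrun⟩ := initial_run _ hρ ⟨16519185021, by norm_num⟩ (by norm_num)
    (127 ^ 5 + 4000)
  -- products
  obtain ⟨r₁, hr₁⟩ : ∃ r₁, r₁ = 127 ^ 5 + 1 + (126 * 10 + 8) := ⟨_, rfl⟩
  obtain ⟨r₂, hr₂⟩ : ∃ r₂, r₂ = 127 ^ 5 + 1 + (126 * 11 + 8) := ⟨_, rfl⟩
  have hr₁0 : 0 < r₁ := by omega
  have hr₂0 : 0 < r₂ := by omega
  have hstep : ∀ s, (s = 10 ∨ s = 11) → ∀ r, r = 127 ^ 5 + 1 + (126 * s + 8) →
      ∀ P : ℕ, 1 ≤ P →
      (∀ N, P * (A + 1) ≤ N + 1 → N ≤ P * (A + 650) + 350 → DualCE N) →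
      ∀ N, r * P * (A + 1) ≤ N + 1 → N ≤ r * P * (A + 650) + 350 → DualCE N := by
    intro s hs r hr P hP hPN N hN1 hN2
    obtain ⟨Q, hQ⟩ : ∃ Q, Q = P * (A + 1) := ⟨_, rfl⟩
    obtain ⟨R, hR⟩ : ∃ R, R = P * (A + 650) := ⟨_, rfl⟩
    have hQA : A + 1 ≤ Q := by rw [hQ]; exact Nat.le_mul_of_pos_left _ hP
    have hrun' : Run (Q - 1) (R + 350) := by
      intro M hM1 hM2
      exact hPN M (by rw [← hQ]; omega) (by rw [← hR]; exact hM2)
    have h1 := step s hs r hr (show 127 ^ 5 + 4000 ≤ Q - 1 by omega) hrun'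
    refine h1 N ?_ ?_
    · have e1 : r * P * (A + 1) = r * (Q - 1) + r := by
        rw [mul_assoc, ← hQ]
        obtain ⟨Q', rfl⟩ : ∃ Q', Q = Q' + 1 := ⟨Q - 1, by omega⟩
        rw [Nat.add_sub_cancel]
        ring
      omega
    · have e1 : r * P * (A + 650) = r * R := by rw [mul_assoc, ← hR]
      have e2 : R + 350 - 175 = R + 175 := by omega
      rw [e2, mul_add]
      omega
  have inv : ∀ a b N : ℕ, r₁ ^ a * r₂ ^ b * (A + 1) ≤ N + 1 →
      N ≤ r₁ ^ a * r₂ ^ b * (A + 650) + 350 → DualCE N := by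
    intro a
    induction a with
    | zero =>
      intro b
      induction b with
      | zero =>
        intro N h1 h2
        simp only [pow_zero, one_mul] at h1 h2
        exact hrun N (by omega) (by omega)
      | succ b ih =>
        intro N h1 h2
        refine hstep 11 (Or.inr rfl) r₂ hr₂ _ (Nat.mul_pos (pow_pos hr₁0 _) (pow_pos hr₂0 _)) ih N
          ?_ ?_
        · refine le_trans (le_of_eq ?_) h1
          ring
        · refine le_trans h2 (le_of_eq ?_)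
          ring
    | succ a ih =>
      intro b N h1 h2
      refine hstep 10 (Or.inl rfl) r₁ hr₁ _ (Nat.mul_pos (pow_pos hr₁0 _) (pow_pos hr₂0 _)) (ih b) N
        ?_ ?_
      · refine le_trans (le_of_eq ?_) h1
        ring
      · refine le_trans h2 (le_of_eq ?_)
        ring
  obtain ⟨N0, hN0⟩ := dens_nat r₁ r₂ (by omega) (by omega) (by
      intro a b ha h
      have h1 : (8259592669 : ℕ) ∣ r₂ ^ b := by
        rw [← h]
        refine dvd_pow ⟨4, ?_⟩ (by omega)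
        rw [hr₁]
        norm_num
      have h2 : Nat.Coprime 8259592669 (r₂ ^ b) := by
        refine Nat.Coprime.pow_right b ?_
        rw [hr₂]
        norm_num
      have h3 := Nat.Coprime.eq_one_of_dvd h2 h1
      omega) (A + 1) (A + 650) (by omega) (by omega)
  refine ⟨N0, fun N hN => ?_⟩
  obtain ⟨a, b, h1, h2⟩ := hN0 N hN
  exact inv a b N (h1.trans (Nat.le_succ N)) (h2.trans (Nat.le_add_right _ _))

end Vale.Agent.P045.H332
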